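import Vale.Agent.P223N.Det
import Vale.Agent.P223F.Lab
import Vale.Agent.P223F.Ut
import Vale.Agent.P223U.All

/-!
# P223N: the count `CNT` (helper11)
-/

open MeasureTheory Filter Topology Set
open scoped ContDiff Classical
open Vale.Agent.P366M Vale.Agent.P210G Vale.Agent.P223U Vale.Agent.P223A Vale.Agent.P223F
open Vale.Agent.P223Y
open Vale.Agent.P366P (ev_lim)

noncomputable section

namespace Vale.Agent.P223N

theorem nt_two {J : ℕ} (t : Fin J → ℝ) : (nt 4 fun j => 2 * t j) = nt 2 t :=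
  congrArg _ (Finset.filter_congr fun j _ => by
    rw [abs_mul, abs_two]; constructor <;> intro <;> linarith)

theorem kk_two {J : ℕ} (t : Fin J → ℝ) : (kk 4 fun j => 2 * t j) = kk 2 t :=
  congrArg _ (Finset.filter_congr fun j _ => and_congr (by
    rw [abs_mul, abs_two]; constructor <;> intro <;> linarith)
    (forall₂_congr fun _ _ => by constructor <;> intro <;> linarith))

theorem cnt_of {n : ℕ} (hC : CUBE n) : CNT n := by
  intro s s0
  obtain ⟨ρ, ρ0, ρ1, hρ⟩ : ∃ ρ > (0 : ℝ), ρ ≤ 1 / 2 ∧ n * ρ ^ 2 ≤ 1 / 128 := by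
    have : (0 : ℝ) ≤ n := n.cast_nonneg
    refine ⟨1 / (16 * (n + 1)), by positivity, one_div_le_one_div_of_le two_pos (by linarith), ?_⟩
    rw [div_pow, one_pow, mul_one_div, div_le_div_iff₀ (by positivity) (by positivity)]
    nlinarith
  obtain ⟨β, b, hs⟩ := exists_stp ρ0
  obtain ⟨A₀, T₀, C, C0, H⟩ := hC s s0 ρ b hs.bm hρ
  have A1 := le_max_right A₀ 1
  replace H := H _ (le_max_left A₀ 1)
  generalize max A₀ 1 = A at A1 H
  refine ⟨4 * A, by linarith, T₀, C * 2 ^ n * n ^ n * 2 ^ n + 1, by positivity,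
    fun X Γ _ _ _ g₀ χ G F K D J B T r g v l p c hc r3 S st rl rp cb => ?_⟩
  have d := G.deck
  have rT : ∀ j, Rs F fun o x => 2 * T j o x := fun j => rs_mul (rs_cst 2) (S.rs j)
  have tT := fun j => (rT j).tr
  have cT := fun j o => ((rT j).sm o).cont
  choose lam hl using fun j => exists_lab (a := -3) d (S.clo j) S.sub (S.sep j) (tT j) (cT j)
    (rT j).inv fun o x h => S.sup j o x (by linarith)
  have ru : ∀ β : ℝ → ℝ, ContDiff ℝ ∞ β → ∀ j, Rs F fun o x => U j fun i => β (2 * T i o x) :=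
    fun β h j => ⟨rn_map (rn_pi fun i => (rT i).toRn) fun t => U j fun i => β (t i),
      fun o => sm_U (fun i => h.compM ((rT i).sm o)) j⟩
  have pu := fun (β : ℝ → ℝ) h (lo : ∀ t < -1, β t = 0) (hi : ∀ t, 6 ≤ t → β t = 1) =>
    pu_pn (a' := -1) S.cK tT cT hl (fun j => (ru β h j).tr) (fun j => (ru β h j).inv)
      (fun j => (ru β h j).sm) (by norm_num) (fun j o x q => U_zero (lo _ q))
      fun o x => (S.cov o x).elim fun i q => sum_U_one (i := i) (hi _ (by linarith))
  have lo : ∀ t < -1, β t = 0 := fun t q => hs.lo t (by linarith)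
  have p1 := (pu β hs.sm lo fun t q => hs.hi t (by linarith)).1
  obtain ⟨p2, cs⟩ := pu (fun t => β (t - 3)) (hs.sm.comp (by fun_prop))
    (fun t q => hs.lo _ (by linarith)) fun t q => hs.hi _ (by linarith)
  set φ := pn lam fun j o x => U j fun i => β (2 * T i o x - 3) with hφ
  have φ0 : ∀ o x, 0 ≤ φ o x := fun o x => Finset.sum_nonneg fun j _ => by
    split_ifs
    exacts [U_nn (fun _ => hs.mem _) j, le_rfl]
  let M := fun o x => Ph s T₀ (Rv (g o) (v o) x - 4 * A / l o x ^ 2) * p o x ^ n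
  have M0 : ∀ o x, 0 ≤ M o x := fun o x =>
    mul_nonneg (P223F.Ph_nonneg _ _ _) (pow_nonneg (cb o x).p0.le _)
  have rM : Rn F M := rn_map₂ (rn_prod (rs_Rv d st).toRn rl.toRn) rp.toRn fun a b =>
    Ph s T₀ (a.1 - 4 * A / a.2 ^ 2) * b ^ n
  have lM := (li_vol st.met rM.tr fun o => ((P223F.cont_Ph s T₀).comp (((rs_Rv d st).sm o).cont.sub
    (continuous_const.div ((rl.sm o).cont.pow 2) fun x => (pow_pos (cb o x).l0 2).ne'))).mul
      ((rp.sm o).cont.pow n)).kk S.rs n 2
  have iM := (rn_map₂ (rn_kk (fun i => (S.rs i).toRn) 2) rM fun a b => ge n a * b).inv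
  have hν := rm_vol d st.rg.inv st.rg.tr st.met
  have lφ := lM.mul p2.tr fun o => (p2.sm o).cont
  have cφ : Cs (fun o x => φ o x * (ge n (kk 2 fun i => T i o x) * M o x)) K := fun o x q => by
    simp only [cs o x q, zero_mul]
  have e : ∀ o x, ge n (kk 2 fun i => T i o x) * (M o x * dr g₀ (g o) x) =
      ge n (kk 2 fun i => T i o x) * M o x * dr g₀ (g o) x := fun _ _ => (mul_assoc _ _ _).symm
  have nn := fun o x => mul_nonneg (P223F.ge_nonneg n (kk 2 fun i => T i o x)) (M0 o x)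
  change _ ≤ _ * E0 F g₀ χ fun o x => _ * (M o x * _)
  simp only [e]
  rw [← Ex_vol G.riem.met st.met]
  refine le_trans ?_ (mul_le_mul_of_nonneg_right (le_add_of_nonneg_right one_pos.le)
    (Ex_nonneg G.wt nn))
  rw [pair_eq d G.riem.met G.inv G.wt hc (fun _ => p1) st.met, Ex_pu hν G.wt d p2
    (li_Om d st.rg.tr st.met (fun _ => p1.toLf) c) (inv_Om d hc (fun _ => p1) st.rg.inv),
    Ex_pu hν G.wt d p2 lM iM, ← integral_const_mul]
  refine (Real.norm_eq_abs _).ge.trans (norm_integral_le_of_norm_le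
    ((lc_int (int_lc hν lφ.tr S.cK cφ)).const_mul _) (.of_forall fun o => ?_))
  simp only [Om_pn tT cT hl (fun j => (ru β hs.sm j).inv) (fun j => (ru β hs.sm j).sm)
    (by norm_num : (-3 : ℝ) < -1) fun j o x q => U_zero (lo _ q)]
  have e2 : ∀ x, A / (1 / 2 * l o x) ^ 2 = 4 * A / l o x ^ 2 := fun x => by
    have := (cb o x).l0
    field_simp
    norm_num
  have g2 : ∀ (a : ℝ) (u : X → ℝ) x, gn (g o) (fun x => a * u x) x = |a| * gn (g o) u x :=
    fun a u x => gn_of_pd (pd_const_mul a)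
  rw [mul_assoc _ _ (integral _ _), ← integral_const_mul]
  refine det (w := fun a e => ∑ j, if e j = 1 then U j a else 0) (c := fun a => c (Fin.cons 1 a))
    d.ori hs hρ ρ1 (st.met o) (fun j => (rT j).sm o) (fun j x q =>
      ev_lim (P := fun o' y => lam j o' y = lam j o x) (pure_le_nhds _) ((hl j).lc o x q))
    (fun x => (nt_two _).trans_le (cb o x).few) C0 (fun x => mul_nonneg (P223F.Ph_nonneg _ _ _)
      (pow_nonneg (mul_pos two_pos (cb o x).p0).le _))
    (fun π O hO hK => H X (g o) (v o) (fun x => 1 / 2 * l o x) (fun x => 2 * p o x) _ O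
      ⟨⟨st.met o, st.cc o, CD.mul cd_const (rl.sm o), fun x => mul_pos one_half_pos (cb o x).l0⟩,
        CD.mul cd_const (rp.sm o), fun x => mul_pos two_pos (cb o x).p0, fun k => (rT _).sm o, hO,
        hK, fun x _ => ?_⟩) (φ0 o) S.cK (cs o) (fun _ => hc.bd _)
    ((lφ.int S.cK cφ o).const_mul _) (fun x => mul_nonneg (by positivity)
      (mul_nonneg (φ0 o x) (nn o x))) fun x q => ?_
  · have h := cb o x
    simp only [g2, e2, abs_two, abs_one_div]
    exact ⟨by linarith [h.gl], by linarith [h.gp, h.p0], fun i =>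
      ⟨by linarith [(h.gT (π i)).1], by linarith [(h.gT (π i)).2]⟩⟩
  · rw [ge_of_le (q.trans_eq (kk_two _)), e2, mul_pow]
    exact le_of_eq (by simp only [M, hφ, pn]; ring)

/-- **CNT** -/
theorem cnt {n : ℕ} (hn : 2 ≤ n) : CNT n := cnt_of (cube hn)

end Vale.Agent.P223N
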