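import Vale.Agent.P223D.Jd

/-!
# P223N: stick breaking (helper11)
-/

open Function
open Vale.Agent.P366M Vale.Agent.P223D
open Vale.Agent.P223Y (Jd)

noncomputable section

namespace Vale.Agent.P223N

variable {J : ℕ} {y : Fin J → ℝ}

/-- the factors of `U` -/
def A (r j : Fin J) (t : ℝ) : ℝ := (if j = r then t else 1) * if j < r then 1 - t else 1

/-- stick breaking -/
def U (r : Fin J) (y : Fin J → ℝ) : ℝ := ∏ j, A r j (y j)

/-- the partial derivatives of `U` -/
def mm (r j : Fin J) (y : Fin J → ℝ) : ℝ := U r (update y j 1) - U r (update y j 0)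

theorem A_eq (r j : Fin J) : A r j = fun t => (A r j 1 - A r j 0) * t + A r j 0 := by
  funext t
  unfold A
  split_ifs with a b
  · exact absurd b (a ▸ lt_irrefl _)
  all_goals ring

theorem der_A (r j : Fin J) (t : ℝ) : HasDerivAt (A r j) (A r j 1 - A r j 0) t := by
  conv => enter [1]; rw [A_eq]
  simpa using ((hasDerivAt_id t).const_mul (A r j 1 - A r j 0)).add_const (A r j 0)

theorem sm_A (r j : Fin J) {m : WithTop ℕ∞} : ContDiff ℝ m (A r j) := by
  rw [A_eq]; fun_prop

theorem cont_U (r : Fin J) : Continuous (U r) :=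
  continuous_finsetProd _ fun j _ => (sm_A (m := 0) r j).continuous.comp (continuous_apply j)

theorem cont_mm (r j : Fin J) : Continuous (mm r j) :=
  ((cont_U r).comp (continuous_id.update j continuous_const)).sub
    ((cont_U r).comp (continuous_id.update j continuous_const))

theorem U_eq (r : Fin J) (y : Fin J → ℝ) : U r y = y r * ∏ j with j < r, (1 - y j) := by
  simp only [U, A, Finset.prod_mul_distrib, Finset.prod_ite_eq', Finset.mem_univ, if_true,
    Finset.prod_filter]

theorem sum_U (y : Fin J → ℝ) : ∑ r, U r y = 1 - ∏ j, (1 - y j) := by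
  rw [Finset.prod_one_sub_ordered, sub_sub_cancel]
  simp only [U_eq]

theorem sum_U_one {i : Fin J} (h : y i = 1) : ∑ r, U r y = 1 := by
  rw [sum_U, Finset.prod_eq_zero (Finset.mem_univ i) (by rw [h, sub_self]), sub_zero]

theorem U_zero {r : Fin J} (h : y r = 0) : U r y = 0 := by rw [U_eq, h, zero_mul]

theorem U_nn (h : ∀ j, 0 ≤ y j ∧ y j ≤ 1) (r : Fin J) : 0 ≤ U r y :=
  U_eq r y ▸ mul_nonneg (h r).1 (Finset.prod_nonneg fun j _ => sub_nonneg.2 (h j).2)

theorem sum_U_le (h : ∀ j, 0 ≤ y j ∧ y j ≤ 1) : ∑ r, U r y ≤ 1 :=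
  sum_U y ▸ sub_le_self _ (Finset.prod_nonneg fun j _ => sub_nonneg.2 (h j).2)

theorem sum_mm (h : ∀ j, 0 ≤ y j ∧ y j ≤ 1) (j : Fin J) : ∑ r, |mm r j y| ≤ 2 := by
  have u : ∀ t : ℝ, 0 ≤ t ∧ t ≤ 1 → ∀ k, 0 ≤ update y j t k ∧ update y j t k ≤ 1 := fun t q =>
    (forall_update_iff (p := fun _ t => 0 ≤ t ∧ t ≤ 1) y).2 ⟨q, fun k _ => h k⟩
  have a := u 1 ⟨one_pos.le, le_rfl⟩
  have b := u 0 ⟨le_rfl, one_pos.le⟩
  refine (Finset.sum_le_sum (g := fun r => U r (update y j 1) + U r (update y j 0)) fun r _ =>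
    abs_le.2 ⟨?_, ?_⟩).trans ?_
  · unfold mm; linarith [U_nn a r]
  · unfold mm; linarith [U_nn b r]
  · linarith [Finset.sum_add_distrib (s := Finset.univ) (f := fun r => U r (update y j 1))
      (g := fun r => U r (update y j 0)), sum_U_le a, sum_U_le b]

theorem mm_eq (r j : Fin J) (y : Fin J → ℝ) :
    mm r j y = (A r j 1 - A r j 0) * ∏ k ∈ Finset.univ.erase j, A r k (y k) := by
  have : ∀ t, U r (update y j t) = A r j t * ∏ k ∈ Finset.univ.erase j, A r k (y k) := fun t => by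
    rw [U, ← Finset.mul_prod_erase _ _ (Finset.mem_univ j), update_self]
    exact congrArg _ (Finset.prod_congr rfl fun k q => by
      rw [update_of_ne (Finset.ne_of_mem_erase q)])
  rw [mm, this, this, sub_mul]

theorem mm_zero {i j : Fin J} (h : y i = 1) (ij : i < j) (r : Fin J) : mm r j y = 0 := by
  rw [mm_eq]
  rcases lt_or_ge i r with q | q
  · rw [Finset.prod_eq_zero (Finset.mem_erase.2 ⟨ij.ne, Finset.mem_univ i⟩) (by simp [A, q, h]),
      mul_zero]
  · simp [A, (q.trans_lt ij).ne', (q.trans_lt ij).not_gt]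

/-- the coefficient of the form of a cocycle -/
def kp {n : ℕ} (h : (Fin n → Fin J) → ℝ) (π : Fin n → Fin J) (y : Fin J → ℝ) : ℝ :=
  ∑ ρ : Fin n → Fin J, h ρ * ∏ k, mm (ρ k) (π k) y

section

variable {n : ℕ} {h : (Fin n → Fin J) → ℝ} {π : Fin n → Fin J}

theorem cont_kp : Continuous (kp h π) := continuous_finsetSum _ fun _ _ =>
  continuous_const.mul (continuous_finsetProd _ fun _ _ => cont_mm _ _)

theorem kp_zero {i : Fin J} {k : Fin n} (e : y i = 1) (ik : i < π k) : kp h π y = 0 :=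
  Finset.sum_eq_zero fun _ _ => by
    rw [Finset.prod_eq_zero (Finset.mem_univ k) (mm_zero e ik _), mul_zero]

theorem abs_kp (h1 : ∀ ρ, |h ρ| ≤ 1) (hy : ∀ j, 0 ≤ y j ∧ y j ≤ 1) : |kp h π y| ≤ 2 ^ n := by
  refine (Finset.abs_sum_le_sum_abs _ _).trans ((Finset.sum_le_sum
    (g := fun ρ : Fin n → Fin J => ∏ k, |mm (ρ k) (π k) y|) fun ρ _ => ?_).trans ?_)
  · rw [abs_mul, Finset.abs_prod]
    exact mul_le_of_le_one_left (Finset.prod_nonneg fun _ _ => abs_nonneg _) (h1 ρ)
  · rw [← Fintype.prod_sum fun k r => |mm r (π k) y|]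
    simpa using Finset.prod_le_prod (s := Finset.univ) (g := fun _ : Fin n => (2 : ℝ))
      (fun k _ => Finset.sum_nonneg fun _ _ => abs_nonneg _) fun k _ => sum_mm hy (π k)

end

variable {n : ℕ} {X : Type} [Mf0 n X] {g : Fld n X} {x : X} {w : Fin J → X → ℝ}

theorem sm_U (hw : ∀ j, Smooth (w j)) (r : Fin J) : Smooth fun z => U r fun j => w j z :=
  fun e he => contDiff_prod (t := Finset.univ) (f := fun j => loc e fun z => A r j (w j z))
    fun j _ => ((sm_A r j).compM (hw j)) e he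

theorem pd_U (hw : ∀ j, DAt (w j) x) (r : Fin J) (i : Fin n) :
    pd i (fun z => U r fun j => w j z) x = ∑ j, mm r j (fun j => w j x) * pd i (w j) x := by
  have d : ∀ j, DAt (fun z => A r j (w j z)) x := fun j =>
    (der_A r j _).differentiableAt.compM (hw j)
  refine (pdE_prod Finset.univ (F := fun j => loc (ch x) fun z => A r j (w j z)) d i).trans
    (Finset.sum_congr rfl fun j _ => ?_)
  simp only [loc_pt]
  rw [mm_eq, mul_right_comm, ← pd_comp (der_A r j _) (hw j)]
  rfl

theorem Jd_sum {f : Fin n → X → ℝ} {M : Fin n → Fin J → ℝ}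
    (h : ∀ k i, pd i (f k) x = ∑ j, M k j * pd i (w j) x) :
    Jd g f x = ∑ π : Fin n → Fin J, (∏ k, M k (π k)) * Jd g (fun k => w (π k)) x := by
  have e : (Matrix.of fun k i => pd i (f k) x) = fun k => ∑ j, M k j • fun i => pd i (w j) x := by
    ext k i; simp [h]
  simp only [Jd, ← mul_div_assoc, ← Finset.sum_div]
  rw [e]
  refine congrArg (· / _) ((Matrix.detRowAlternating.toMultilinearMap.map_sum _).trans
    (Finset.sum_congr rfl fun π _ => MultilinearMap.map_smul_univ _ _ _))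

/-- the form of a cocycle for the stick breaking partition -/
theorem form_eq {T : Fin J → X → ℝ} (hT : ∀ j, DAt (T j) x) {β b : ℝ → ℝ}
    (hβ : ∀ t, HasDerivAt β (b t) t) (h : (Fin n → Fin J) → ℝ) :
    ∑ ρ : Fin n → Fin J, h ρ * Jd g (fun k z => U (ρ k) fun j => β (T j z)) x =
      ∑ π : Fin n → Fin J, kp h π (fun j => β (T j x)) * (∏ k, b (T (π k) x)) *
        Jd g (fun k => T (π k)) x := by
  have e : ∀ ρ : Fin n → Fin J, _ := fun ρ => Jd_sum (g := g) (w := T)
    (f := fun k z => U (ρ k) fun j => β (T j z))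
    (M := fun k j => mm (ρ k) j (fun j => β (T j x)) * b (T j x)) fun k i => by
      rw [pd_U (w := fun j z => β (T j z)) fun j => (hβ _).differentiableAt.compM (hT j)]
      simp only [pd_comp (hβ _) (hT _), mul_assoc]
  simp only [e, kp, Finset.mul_sum, Finset.sum_mul, Finset.prod_mul_distrib, mul_assoc]
  exact Finset.sum_comm

end Vale.Agent.P223N
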