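import Vale.Agent.P223N.Piece
import Vale.Agent.P223N.Stick
import Vale.Agent.P223A.Defs

/-!
# P223N: the deterministic count (helper11)
-/

open MeasureTheory Filter Topology Set Function
open Vale.Agent.P366M Vale.Agent.P210U Vale.Agent.P223U Vale.Agent.P223D Vale.Agent.P223A
open Vale.Agent.P210E (K4)
open Vale.Agent.P223Y (Jd)

noncomputable section

namespace Vale.Agent.P223N

variable {n J : ℕ} {π : Fin n → Fin J} {t : Fin J → ℝ}

theorem out (hπ : Injective π) (few : nt 4 t ≤ n) (h : ∀ k, |t (π k)| ≤ 2) {j : Fin J}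
    (q : ¬∃ k, π k = j) : 4 < |t j| := by
  by_contra! a
  have : insert j (Finset.univ.image π) ⊆ Finset.univ.filter fun i => |t i| ≤ 4 := fun i e => by
    rcases Finset.mem_insert.1 e with rfl | e
    · simpa using a
    · obtain ⟨k, -, rfl⟩ := Finset.mem_image.1 e
      simpa using (h k).trans (by norm_num)
  have := (Finset.card_le_card this).trans few
  rw [Finset.card_insert_of_notMem (by simpa using q), Finset.card_image_of_injective _ hπ,
    Finset.card_fin] at this
  omega

theorem le_kk (hπ : Injective π) (h : ∀ k, |t (π k)| ≤ 2) (h' : ∀ k, ∀ j < π k, t j ≤ 4) :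
    n ≤ kk 4 t := by
  have : Finset.univ.image π ⊆ Finset.univ.filter fun i => |t i| ≤ 4 ∧ ∀ j < i, t j ≤ 4 :=
    fun i e => by
      obtain ⟨k, -, rfl⟩ := Finset.mem_image.1 e
      exact Finset.mem_filter.2 ⟨Finset.mem_univ _, (h k).trans (by norm_num), h' k⟩
  simpa only [Finset.card_image_of_injective _ hπ, Finset.card_fin, kk] using
    Finset.card_le_card this

variable {X Γ : Type} [Mf0 n X] {g : Fld n X} {K : Set X} {r C : ℝ} {β b : ℝ → ℝ}
  {T : Fin J → X → ℝ} {lam : Fin J → X → Γ} {M μ : X → ℝ} {w : (Fin J → ℝ) → (Fin J → Γ) → ℝ}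
  {c : (Fin n → Γ) → ℝ}

theorem sum_Wn (hT : ∀ j, Smooth (T j)) (few : ∀ x, (nt 4 fun j => T j x) ≤ n)
    (hμ : Integrable μ (vol g)) (μ0 : ∀ x, 0 ≤ μ x) :
    ∑ π : Fin n → Fin J, ∫ x in Wn fun k => T (π k), μ x ∂vol g ≤ n ^ n * ∫ x, μ x ∂vol g := by
  classical
  have m : ∀ π : Fin n → Fin J, MeasurableSet (Wn fun k => T (π k)) := fun π =>
    (closed_Wn fun k => hT _).measurableSet
  simp only [← integral_indicator (m _)]
  rw [← integral_finsetSum _ fun π _ => hμ.indicator (m π), ← integral_const_mul]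
  refine integral_mono (integrable_finsetSum _ fun π _ => hμ.indicator (m π)) (hμ.const_mul _)
    fun x => ?_
  simp only [indicator_apply, ← Finset.sum_filter, Finset.sum_const, nsmul_eq_mul]
  refine mul_le_mul_of_nonneg_right ?_ (μ0 x)
  have : (Finset.univ.filter fun π : Fin n → Fin J => x ∈ Wn fun k => T (π k)) ⊆
      Fintype.piFinset fun _ => Finset.univ.filter fun j => |T j x| ≤ 4 := fun π e =>
    Fintype.mem_piFinset.2 fun k => Finset.mem_filter.2 ⟨Finset.mem_univ _,
      ((Finset.mem_filter.1 e).2 k).trans (by norm_num)⟩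
  have := (Finset.card_le_card this).trans_eq (Fintype.card_piFinset_const _ _)
  exact_mod_cast this.trans (Nat.pow_le_pow_left (few x) n)

section

variable (ho : Ori X) (hs : Stp r β b) (hr : n * r ^ 2 ≤ 1 / 128) (r1 : r ≤ 1 / 2) (hg : Met g)
  (hT : ∀ j, Smooth (T j)) (hl : ∀ j x, T j x ≠ -3 → ∀ᶠ z in 𝓝 x, lam j z = lam j x)
  (few : ∀ x, (nt 4 fun j => T j x) ≤ n) (C0 : 0 ≤ C) (M0 : ∀ x, 0 ≤ M x)
  (H : ∀ (π : Fin n → Fin J) O, IsOpen O → IsCompact (K4 (fun k => T (π k)) O) → ∀ δ > (0 : ℝ),
    ∃ G' : Fin n → X → ℝ, (∀ i, Smooth (G' i)) ∧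
      (∀ x, x ∉ O ∨ 1 ≤ nsq (fun k => T (π k)) x → ∀ i, G' i x = T (π i) x) ∧
      Cst g b G' (K4 (fun k => T (π k)) O) ≤ C * ∫ x in K4 (fun k => T (π k)) O, M x ∂vol g + δ)
  (w0 : ∀ x, 0 ≤ w (fun j => β (T j x - 3)) fun j => lam j x) (hK : IsCompact K)
  (cs : ∀ x ∉ K, (w (fun j => β (T j x - 3)) fun j => lam j x) = 0) (hc : ∀ l, |c l| ≤ 1)
  (hμ : Integrable μ (vol g)) (μ0 : ∀ x, 0 ≤ μ x)
  (le : ∀ x, (n ≤ kk 4 fun j => T j x) → (w (fun j => β (T j x - 3)) fun j => lam j x) * M x ≤ μ x)
include ho hs hr r1 hg hT hl few C0 M0 H w0 hK cs hc hμ μ0 le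

theorem det1 (π : Fin n → Fin J) : let f := fun x => (w (fun j => β (T j x - 3)) fun j => lam j x) *
      (kp (fun ρ => c fun k => lam (ρ k) x) π (fun j => β (T j x)) * (∏ k, b (T (π k) x)) *
        Jd g (fun k => T (π k)) x)
    Integrable f (vol g) ∧
      |∫ x, f x ∂vol g| ≤ C * 2 ^ n * ∫ x in Wn fun k => T (π k), μ x ∂vol g := by
  intro f
  by_cases hπ : Injective π
  swap
  · obtain ⟨k, l, e, kl⟩ := not_injective_iff.1 hπ
    have : f = fun _ => 0 := funext fun x => by
      have z : Jd g (fun k => T (π k)) x = 0 := Jd_of_eq kl fun i => by simp only [e]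
      simp only [f, z, mul_zero]
    rw [this, integral_zero, abs_zero]
    exact ⟨integrable_zero _ _ _, mul_nonneg (by positivity) (integral_nonneg μ0)⟩
  have o := fun x (h : x ∈ Wn fun k => T (π k)) j => out (j := j) hπ (few x) h
  have sp : ∀ x ∈ Wn fun k => T (π k), ∀ j, |T j x| ≤ 2 ∨ 4 < |T j x| := fun x h j => by
    by_cases q : ∃ k, π k = j
    · exact .inl (q.elim fun k e => e ▸ h k)
    · exact .inr (o x h j q)
  let P := fun (a : (Fin J → ℝ) × (Fin J → Γ)) (y : Fin n → ℝ) =>
    w a.1 a.2 * kp (fun ρ => c fun k => a.2 (ρ k)) π (extend π (fun k => β (y k)) a.1)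
  have := piece (τ := fun x => (fun j => β (T j x - 3), fun j => lam j x)) (P := P) ho hs hr
    (r1.trans (by norm_num)) hg (fun k => hT (π k)) C0 M0 (H π) (fun x h => ?_) (fun a => ?_) hK
    (fun x _ q y => by simp only [P, cs x q, zero_mul]) (hμ.const_mul (2 ^ n))
    (fun x => mul_nonneg (by positivity) (μ0 x)) fun x₀ h => ?_
  · rw [integral_const_mul, ← mul_assoc] at this
    suffices e : f = _ from e ▸ this
    funext x
    by_cases h : x ∈ Wn fun k => T (π k)
    · have : (extend π (fun k => β (T (π k) x)) fun j => β (T j x - 3)) = fun j => β (T j x) := by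
        funext j
        by_cases q : ∃ k, π k = j
        · obtain ⟨k, rfl⟩ := q
          rw [hπ.extend_apply]
        · rw [extend_apply' _ _ _ q]
          rcases lt_abs.1 (o x h j q) with a | a
          · rw [hs.hi _ (by linarith), hs.hi _ (by linarith)]
          · rw [hs.lo _ (by linarith), hs.lo _ (by linarith)]
      simp only [f, P, mul_assoc, this]
    · simp only [f, prod_zero hs.bu fun a => h fun j => (a j).trans (r1.trans (by norm_num)),
        mul_zero, zero_mul]
  · have a : ∀ j, ∀ᶠ z in 𝓝 x, β (T j z - 3) = β (T j x - 3) := fun j => by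
      have ct := (hT j).cont.continuousAt (x := x)
      rcases lt_or_ge 4 (T j x) with q | q
      · filter_upwards [ct.eventually (lt_mem_nhds q)] with z e
        rw [hs.hi _ (by linarith), hs.hi _ (by linarith)]
      · have : T j x < 5 / 2 := by
          rcases sp x h j with a | a
          · linarith [le_abs_self (T j x)]
          · linarith [(lt_abs.1 a).resolve_left q.not_gt]
        filter_upwards [ct.eventually (gt_mem_nhds this)] with z e
        rw [hs.lo _ (by linarith), hs.lo _ (by linarith)]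
    filter_upwards [eventually_all.2 a, eventually_all.2 fun j => hl j x fun e => by
      have := sp x h j
      rw [e] at this
      norm_num at this] with z e e'
    exact Prod.ext (funext e) (funext e')
  · refine continuous_const.mul (cont_kp.comp (continuous_pi fun j => ?_))
    by_cases q : ∃ k, π k = j
    · obtain ⟨k, rfl⟩ := q
      simp only [hπ.extend_apply]
      exact hs.sm.continuous.comp (continuous_apply k)
    · simp only [extend_apply' _ _ _ q]
      exact continuous_const
  · by_cases q : ∃ k, ∃ j < π k, β (T j x₀ - 3) = 1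
    · obtain ⟨k, j, jk, e⟩ := q
      refine ⟨0, le_rfl, fun y => ?_, fun x _ _ => (zero_mul _).trans_le
        (mul_nonneg (by positivity) (μ0 x))⟩
      have z : ¬∃ l, π l = j := fun ⟨l, a⟩ => zero_ne_one
        ((hs.lo _ (by linarith [le_abs_self (T j x₀), show |T j x₀| ≤ 2 from a ▸ h l])).symm.trans e)
      simp only [P]
      rw [kp_zero (i := j) ((extend_apply' _ _ _ z).trans e) jk, mul_zero, abs_zero]
    · refine ⟨2 ^ n * w (fun j => β (T j x₀ - 3)) fun j => lam j x₀,
        mul_nonneg (by positivity) (w0 _), fun y => ?_, fun x a e => ?_⟩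
      · simp only [P]
        rw [abs_mul, abs_of_nonneg (w0 _), mul_comm]
        refine mul_le_mul_of_nonneg_right (abs_kp (fun _ => hc _) fun j => ?_) (w0 _)
        rw [extend_def]
        split_ifs <;> exact hs.mem _
      · obtain ⟨e1, e2⟩ := Prod.ext_iff.1 e
        simp only at e1 e2
        rw [← e1, ← e2, mul_assoc]
        refine mul_le_mul_of_nonneg_left (le x (le_kk hπ a fun k j jk => not_lt.1 fun u =>
          q ⟨k, j, jk, (congrFun e1 j).symm.trans (hs.hi _ (by linarith))⟩)) (by positivity)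

/-- **the deterministic count** -/
theorem det : |∫ x, (w (fun j => β (T j x - 3)) fun j => lam j x) * ∑ ρ : Fin n → Fin J,
      (c fun k => lam (ρ k) x) * Jd g (fun k z => U (ρ k) fun j => β (T j z)) x ∂vol g| ≤
    C * 2 ^ n * n ^ n * ∫ x, μ x ∂vol g := by
  have h := det1 ho hs hr r1 hg hT hl few C0 M0 H w0 hK cs hc hμ μ0 le
  simp only [form_eq (fun j => (hT j).diff _) hs.der, Finset.mul_sum]
  rw [integral_finsetSum _ fun π _ => (h π).1, mul_assoc _ _ (integral _ _)]
  refine (Finset.abs_sum_le_sum_abs _ _).trans ((Finset.sum_le_sum fun π _ => (h π).2).trans ?_)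
  rw [← Finset.mul_sum]
  exact mul_le_mul_of_nonneg_left (sum_Wn hT few hμ μ0) (by positivity)

end

end Vale.Agent.P223N
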