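import Vale.Agent.P223D.Deg
import Vale.Agent.P223U.Defs

/-!
# P223N: the degrees of the pieces (helper11)
-/

open MeasureTheory Filter Topology Set
open scoped ContDiff
open Vale.Agent.P366M Vale.Agent.P210G Vale.Agent.P210U Vale.Agent.P223U Vale.Agent.P223D
open Vale.Agent.P210E (K4)
open Vale.Agent.P223Y (Jd)

noncomputable section

namespace Vale.Agent.P223N

/-- a smooth step from `0` to `1` on `[-r, r]`, with the derivative `b` -/
structure Stp (r : ℝ) (β b : ℝ → ℝ) : Prop where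
  sm : ContDiff ℝ ∞ β
  der : ∀ t, HasDerivAt β (b t) t
  bu : Bump r b
  bm : Bmp r b
  lo : ∀ t, t ≤ -r → β t = 0
  hi : ∀ t, r ≤ t → β t = 1
  mem : ∀ t, 0 ≤ β t ∧ β t ≤ 1

theorem exists_stp {r : ℝ} (hr : 0 < r) : ∃ β b, Stp r β b := by
  let β : ℝ → ℝ := fun t => Real.smoothTransition ((t + r) / (2 * r))
  have sm : ContDiff ℝ ∞ β := Real.smoothTransition.contDiff.comp (by fun_prop)
  have lo : ∀ t, t ≤ -r → β t = 0 := fun t h =>
    Real.smoothTransition.zero_of_nonpos (div_nonpos_of_nonpos_of_nonneg (by linarith) (by linarith))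
  have hi : ∀ t, r ≤ t → β t = 1 := fun t h =>
    Real.smoothTransition.one_of_one_le ((one_le_div (by linarith)).2 (by linarith))
  have mem : ∀ t, 0 ≤ β t ∧ β t ≤ 1 := fun t =>
    ⟨Real.smoothTransition.nonneg _, Real.smoothTransition.le_one _⟩
  have d : ∀ t, HasDerivAt β (deriv β t) t := fun t => (sm.differentiable (by simp) t).hasDerivAt
  have sb := (contDiff_infty_iff_deriv.1 sm).2
  have z : ∀ t, r ≤ |t| → deriv β t = 0 := fun t h => by
    rcases le_abs.1 h with q | q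
    · exact IsLocalMax.deriv_eq_zero (.of_forall fun y => (hi t q).symm ▸ (mem y).2)
    · exact IsLocalMin.deriv_eq_zero (.of_forall fun y => (lo t (by linarith)).symm ▸ (mem y).1)
  have bu : Bump r (deriv β) := ⟨sb, fun t h => z t h.le⟩
  refine ⟨β, _, sm, d, bu, ⟨sb.continuous, fun t => Monotone.deriv_nonneg fun a b h =>
    Real.smoothTransition.monotone (by gcongr), z, ?_⟩, lo, hi, mem⟩
  rw [integral_of_hasDerivAt_of_tendsto d bu.int
    (tendsto_const_nhds.congr' ((eventually_le_atBot (-r)).mono fun t h => (lo t h).symm))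
    (tendsto_const_nhds.congr' ((eventually_ge_atTop r).mono fun t h => (hi t h).symm)), sub_zero]

variable {n : ℕ} {X : Type} [Mf0 n X] {g : Fld n X} {G : Fin n → X → ℝ} {O K : Set X} {r : ℝ}
  {β b : ℝ → ℝ}

omit [Mf0 n X] in
theorem nsq_le (hr : n * r ^ 2 ≤ 1 / 128) {x : X} (h : ∀ j, |G j x| ≤ r) : nsq G x ≤ 4 := by
  have := Finset.sum_le_sum fun j (_ : j ∈ Finset.univ) =>
    sq_le_sq' (abs_le.1 (h j)).1 (abs_le.1 (h j)).2
  rw [Finset.sum_const, Finset.card_fin, nsmul_eq_mul] at this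
  exact this.trans (hr.trans (by norm_num))

omit [Mf0 n X] in
theorem abs_le_two {x : X} (h : nsq G x ≤ 4) (j : Fin n) : |G j x| ≤ 2 :=
  abs_le_of_sq_le_sq ((Finset.single_le_sum (f := fun i => G i x ^ 2) (fun _ _ => sq_nonneg _)
    (Finset.mem_univ j)).trans (h.trans (by norm_num))) two_pos.le

theorem prod_zero (hb : Bump r b) {y : Fin n → ℝ} (h : ¬∀ j, |y j| ≤ r) : ∏ j, b (y j) = 0 := by
  obtain ⟨j, q⟩ := not_forall.1 h
  exact Finset.prod_eq_zero (Finset.mem_univ j) (hb.out _ (not_le.1 q))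

theorem cpt_win (hr : n * r ^ 2 ≤ 1 / 128) (hG : ∀ j, Smooth (G j)) (hK : IsCompact (K4 G O)) :
    IsCompact (O ∩ {x | ∀ j, |G j x| ≤ r}) := by
  convert hK.inter_right (t := {x | ∀ j, |G j x| ≤ r}) (by
    rw [ofPred_forall]
    exact isClosed_iInter fun j => isClosed_le (hG j).cont.abs continuous_const) using 1
  exact Subset.antisymm (fun x h => ⟨⟨h.1, nsq_le hr h.2⟩, h.2⟩) fun x h => ⟨h.1.1, h.2⟩

/-- one piece -/
theorem piece1 (ho : Ori X) (hs : Stp r β b) (hr : n * r ^ 2 ≤ 1 / 128) (hg : Met g)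
    (hG : ∀ j, Smooth (G j)) (hO : IsOpen O) (hK : IsCompact (K4 G O)) {B : ℝ}
    (H : ∀ δ > (0 : ℝ), ∃ G' : Fin n → X → ℝ, (∀ i, Smooth (G' i)) ∧
      (∀ x, x ∉ O ∨ 1 ≤ nsq G x → ∀ i, G' i x = G i x) ∧ Cst g b G' (K4 G O) ≤ B + δ)
    {P : (Fin n → ℝ) → ℝ} (hP : Continuous P) {c : ℝ} (c0 : 0 ≤ c) (hc : ∀ y, |P y| ≤ c) :
    |∫ x in O, P (fun j => G j x) * (∏ j, b (G j x)) * Jd g G x ∂vol g| ≤ c * B := by
  refine (deg_le ho hg hG hO (cpt_win hr hG hK) (fun _ => hs.bu) (fun _ => hs.bu)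
    (fun _ => hs.bm.int) hP fun y _ => hc y).trans ?_
  simp only [abs_of_nonneg (hs.bm.nn _), hs.bm.int, Finset.prod_const_one, mul_one]
  refine mul_le_mul_of_nonneg_left (le_of_forall_pos_le_add fun δ δ0 => ?_) c0
  obtain ⟨G', s', e, le⟩ := H δ δ0
  have e' : ∀ j, ∀ x ∉ K4 G O, G' j x = G j x := fun j x q => e x (by
    by_contra! a
    exact q ⟨a.1, by linarith [a.2]⟩) j
  rw [← deg_wt ho hg hG s' hK (fun _ q => q.1) e' fun _ => hs.bu.sm,
    setIntegral_eq_of_subset_of_forall_sdiff_eq_zero hO.measurableSet (s := K4 G O) (fun _ q => q.1)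
      fun x q => by
        simp only [fun j => e' j x q.2]
        rw [prod_zero hs.bu fun a => q.2 ⟨q.1, nsq_le hr a⟩, zero_mul]]
  refine (abs_integral_le_integral_abs.trans_eq ?_).trans le
  simp only [Cst, abs_mul, abs_of_nonneg (Finset.prod_nonneg fun _ _ => hs.bm.nn _)]

/-- the windows -/
def Wn (G : Fin n → X → ℝ) : Set X := {x | ∀ j, |G j x| ≤ 2}

theorem closed_Wn (hG : ∀ j, Smooth (G j)) : IsClosed (Wn G) := by
  rw [Wn, ofPred_forall]
  exact isClosed_iInter fun j => isClosed_le (hG j).cont.abs continuous_const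

/-- all pieces; the piece of `x` is determined by its type `τ x` -/
theorem piece (ho : Ori X) (hs : Stp r β b) (hr : n * r ^ 2 ≤ 1 / 128) (r2 : r ≤ 2) (hg : Met g)
    (hG : ∀ j, Smooth (G j)) {C : ℝ} (C0 : 0 ≤ C) {M μ : X → ℝ} (M0 : ∀ x, 0 ≤ M x)
    (H : ∀ O, IsOpen O → IsCompact (K4 G O) → ∀ δ > (0 : ℝ), ∃ G' : Fin n → X → ℝ,
      (∀ i, Smooth (G' i)) ∧ (∀ x, x ∉ O ∨ 1 ≤ nsq G x → ∀ i, G' i x = G i x) ∧
      Cst g b G' (K4 G O) ≤ C * ∫ x in K4 G O, M x ∂vol g + δ)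
    {α : Type} {τ : X → α} (hτ : ∀ x ∈ Wn G, ∀ᶠ z in 𝓝 x, τ z = τ x)
    {P : α → (Fin n → ℝ) → ℝ} (hP : ∀ a, Continuous (P a)) (hK : IsCompact K)
    (cs : ∀ x ∈ Wn G, x ∉ K → ∀ y, P (τ x) y = 0) (hμ : Integrable μ (vol g)) (μ0 : ∀ x, 0 ≤ μ x)
    (hc : ∀ x₀ ∈ Wn G, ∃ c ≥ (0 : ℝ), (∀ y, |P (τ x₀) y| ≤ c) ∧
      ∀ x ∈ Wn G, τ x = τ x₀ → c * M x ≤ μ x) :
    Integrable (fun x => P (τ x) (fun j => G j x) * (∏ j, b (G j x)) * Jd g G x) (vol g) ∧
    |∫ x, P (τ x) (fun j => G j x) * (∏ j, b (G j x)) * Jd g G x ∂vol g| ≤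
      C * ∫ x in Wn G, μ x ∂vol g := by
  classical
  let U : α → Set X := fun a => {x | ∀ᶠ z in 𝓝 x, τ z = a}
  have oU : ∀ a, IsOpen (U a) := fun a => isOpen_setOfPred_eventually_nhds
  have eU : ∀ a, ∀ x ∈ U a, τ x = a := fun a x h => h.self_of_nhds
  have cW := closed_Wn hG
  obtain ⟨t, ht⟩ := (hK.inter_right cW).elim_finite_subcover U oU fun x h =>
    mem_iUnion.2 ⟨_, hτ x h.2⟩
  let Q := t.filter fun a => (∃ x ∈ Wn G, τ x = a) ∧ ∃ y, P a y ≠ 0
  have kc : ∀ a ∈ Q, IsCompact (K4 G (U a)) := fun a ha => by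
    obtain ⟨-, -, y, hy⟩ := Finset.mem_filter.1 ha
    refine hK.of_isClosed_subset (isClosed_iff_frequently.2 fun x h => ?_) fun x h => ?_
    · have k : nsq G x ≤ 4 := (isClosed_le (sm_nsq hG).cont continuous_const).closure_subset
        (mem_closure_iff_frequently.2 (h.mono fun z q => q.2))
      have := hτ x (abs_le_two k)
      obtain ⟨z, a1, a2⟩ := (h.and_eventually this).exists
      exact ⟨this.mono fun w q => q.trans (a2.symm.trans (eU _ _ a1.1)), k⟩
    · by_contra q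
      exact hy (eU _ _ h.1 ▸ cs x (abs_le_two h.2) q y)
  have e : (fun x => P (τ x) (fun j => G j x) * (∏ j, b (G j x)) * Jd g G x) = fun x => ∑ a ∈ Q,
      (U a).indicator (fun x => P a (fun j => G j x) * (∏ j, b (G j x)) * Jd g G x) x := by
    funext x
    rw [Finset.sum_eq_single (τ x) fun a _ q => indicator_of_notMem (fun k => q (eU _ _ k).symm) _]
    · by_cases w : x ∈ Wn G
      · rw [indicator_of_mem (show x ∈ U (τ x) from hτ x w)]
      · simp [indicator_apply, prod_zero hs.bu fun a => w fun j => (a j).trans r2]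
    · intro q
      by_cases w : x ∈ Wn G
      · by_cases k : x ∈ K
        · obtain ⟨a, a1, a2⟩ := mem_iUnion₂.1 (ht ⟨k, w⟩)
          have : ∀ y, P (τ x) y = 0 := by
            by_contra! z
            exact q (Finset.mem_filter.2 ⟨eU _ _ a2 ▸ a1, ⟨x, w, rfl⟩, z⟩)
          simp [indicator_apply, this]
        · simp [indicator_apply, cs x w k]
      · simp [indicator_apply, prod_zero hs.bu fun a => w fun j => (a j).trans r2]
  have i1 : ∀ a ∈ Q, IntegrableOn (fun x => P a (fun j => G j x) * (∏ j, b (G j x)) * Jd g G x)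
      (U a) (vol g) := fun a ha => int_bump ho hg hG (oU a) (cpt_win hr hG (kc a ha))
    (fun _ => hs.bu) ((hP a).comp' (continuous_pi fun j => (hG j).cont))
  have i2 := fun a ha => (integrable_indicator_iff (oU a).measurableSet).2 (i1 a ha)
  rw [e]
  refine ⟨integrable_finsetSum _ i2, ?_⟩
  have mK : ∀ a ∈ Q, MeasurableSet (K4 G (U a)) := fun a ha => (kc a ha).measurableSet
  rw [integral_finsetSum _ i2]
  refine (Finset.abs_sum_le_sum_abs _ _).trans ((Finset.sum_le_sum (g := fun a =>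
    C * ∫ x in K4 G (U a), μ x ∂vol g) fun a ha => ?_).trans ?_)
  · obtain ⟨-, ⟨x₀, w, rfl⟩, -⟩ := Finset.mem_filter.1 ha
    obtain ⟨c, c0, a1, a2⟩ := hc x₀ w
    rw [integral_indicator (oU _).measurableSet]
    refine (piece1 ho hs hr hg hG (oU _) (kc _ ha) (H _ (oU _) (kc _ ha)) (hP _) c0 a1).trans ?_
    rw [mul_left_comm, ← integral_const_mul]
    exact mul_le_mul_of_nonneg_left (integral_mono_of_nonneg
      (.of_forall fun x => mul_nonneg c0 (M0 x)) hμ.integrableOn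
      ((ae_restrict_mem (mK _ ha)).mono fun x q => a2 x (abs_le_two q.2) (eU _ _ q.1))) C0
  · rw [← Finset.mul_sum, ← integral_biUnion_finset _ mK (fun a _ a' _ q => disjoint_left.2
      fun x k k' => q ((eU _ _ k.1).symm.trans (eU _ _ k'.1))) fun _ _ => hμ.integrableOn]
    exact mul_le_mul_of_nonneg_left (setIntegral_mono_set hμ.integrableOn (.of_forall μ0)
      (iUnion₂_subset fun a _ x q => abs_le_two q.2 : _ ⊆ Wn G).eventuallyLE) C0

end Vale.Agent.P223N
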